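import Vale.Agent.P088.R2.H238.S4.PB
import Vale.Agent.P088.R2.H238.S4.S6
import Vale.Agent.P088.R2.H673.S3.SE

/-!
# P088, stage 4, row P4N: the weighted size of the error
-/

open MeasureTheory Set Filter Topology
open scoped ContDiff Matrix

noncomputable section

namespace Vale.Agent.P088.S4.H238

open Vale.Agent.P088.LR Vale.Agent.P088.LR.U Vale.Agent.P088.LR.H158
open Vale.Agent.P088.PJ
open Vale.Agent.P088.HY (VV)
open Vale.Agent.P088.HY.QM (norm_sq_le sq_nonneg')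
open Vale.Agent.P088.HY.T3 (Eb e0 Ao Ac iv)
open Vale.Agent.P088.HY.T4 (gy gx kk Oc Zq cg Lvl)

variable {n N : ℕ}

/-- Facts about the level functions. -/
structure GF (n : ℕ) (σ κ Λ r₀ : ℝ) : Prop where
  L0 : 0 ≤ Λ
  r0 : 0 < r₀
  cg : ContinuousOn (gx n σ) (O1 n)
  lg : ∀ x ∈ O1 n, ∀ y ∈ O1 n, ‖x - y‖ ≤ r₀ → |gx n σ y - gx n σ x| ≤ Λ * ‖x - y‖
  lt : ∀ x ∈ O1 n, ∀ y ∈ O1 n, ‖x - y‖ ≤ r₀ →
    |gt n σ κ (iv y) - gt n σ κ (iv x)| ≤ Λ * ‖x - y‖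
  ti : ∀ x ∈ O1 n, √(HY.sq x) ≤ 96 / 100 → gt n σ κ (iv x) = gx n σ x - κ
  tl : ∀ x ∈ O1 n, gt n σ κ (iv x) ≤ gx n σ x
  b3 : ∀ x ∈ O1 n, |gx n σ x| ≤ 3
  bh : ∀ x ∈ O1 n, gx n σ x ≤ 1 / 2
  bo : ∀ x ∈ O1 n, 8 ≤ √(HY.sq x) → gx n σ x ≤ -(4 / 5)

/-- The pointwise consequence of (KB). -/
def KB0 (d : PD n N) (k2 : Fin n → Fin n → MC n N) (C : ℝ) : Prop :=
  ∀ z : VV n, ‖z.1 - z.2‖ ≤ 1 → ∀ B : ℝ, 0 ≤ B →
    (∀ i j a b, ∀ m ≤ 2, ‖iteratedFDeriv ℝ m (fun x => k2 i j x a b) z.2‖ ≤ B) → ∀ a b,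
    ‖Fx d.s₁ d.τ d.β k2 z a b‖ ≤ C * ‖z.1 - z.2‖ ^ 2 * B ∧
    ‖Fy d.s₁ d.s₂ d.τ d.P₂ d.G₂ d.β d.Y d.Γ k2 z a b‖ ≤ C * ‖z.1 - z.2‖ ^ 2 * B

theorem sqrt_nq_le {A B : Matrix (Fin N) (Fin N) ℂ} {c : ℝ} (hc : 0 ≤ c)
    (hA : ∀ a b, ‖A a b‖ ≤ c) (hB : ∀ a b, ‖B a b‖ ≤ c) : √(nq A + nq B) ≤ 2 * N * c := by
  have h1 : ∀ X : Matrix (Fin N) (Fin N) ℂ, (∀ a b, ‖X a b‖ ≤ c) → nq X ≤ N * (N * c ^ 2) := by
    intro X hX
    unfold nq
    calc ∑ a, ∑ b, ‖X a b‖ ^ 2 ≤ ∑ _a : Fin N, ∑ _b : Fin N, c ^ 2 :=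
          Finset.sum_le_sum fun a _ => Finset.sum_le_sum fun b _ =>
            pow_le_pow_left₀ (norm_nonneg _) (hX a b) 2
      _ = _ := by simp
  rw [Real.sqrt_le_left (by positivity)]
  have h2 := h1 A hA
  have h3 := h1 B hB
  have h4 : 0 ≤ (N : ℝ) * (N * c ^ 2) := by positivity
  nlinarith

/-- Where the jets of `k2` vanish. -/
theorem k2_van {d : PD n N} {σ κ Λ r₀ Nu q A R kap Gs : ℝ} {L : ℕ} {k2 : Fin n → Fin n → MC n N}
    (hG : GF n σ κ Λ r₀) (hk : K2D d σ Nu q A R kap Gs L k2) {y : V n} (hy : y ∈ O1 n)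
    (hu : R * (gx n σ y - Gs) < -(Real.log kap / 2)) (i j : Fin n) (a b : Fin N) (m : ℕ) :
    iteratedFDeriv ℝ m (fun x => k2 i j x a b) y = 0 := by
  have hO : IsOpen (O1 n) := HY.T3.isOpen_Ao _ _
  have h1 : ContinuousAt (fun x => R * (gx n σ x - Gs)) y :=
    (((hG.cg.continuousAt (hO.mem_nhds hy)).sub continuousAt_const).const_mul R)
  have h2 : (fun x => k2 i j x a b) =ᶠ[𝓝 y] fun _ => 0 := by
    filter_upwards [h1.eventually_lt continuousAt_const hu] with x hx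
    rw [hk.z2 x hx.le i j]; rfl
  have h3 := (h2.iteratedFDeriv (𝕜 := ℝ) m).eq_of_nhds
  rw [h3]
  have h4 := congrFun (iteratedFDeriv_zero_fun (𝕜 := ℝ) (E := V n) (F := ℂ) (n := m)) y
  simpa using h4

section pt

variable {d : PD n N} {σ κ Λ r₀ Nu q A C R kap Gs : ℝ} {L : ℕ} {k2 : Fin n → Fin n → MC n N}
  {η : VV n → ℝ} {K0 : KC n N}

/-- The hypotheses on the numbers. -/
structure ND (Λ r₀ Nu q R kap Gs : ℝ) : Prop where
  R1 : 1 ≤ R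
  N0 : 0 ≤ Nu
  q0 : 0 ≤ q
  l1 : 1 ≤ Real.log kap
  k0 : 0 < kap
  rr : 1 / R ^ 2 ≤ r₀
  r1 : 4 * Λ < R
  r2 : (Nu + q) * Λ ≤ R
  lR : Real.log kap ≤ R
  g0 : Gs ≤ 0
  g1 : -(1 / 10) ≤ Gs

theorem ND.u_near (h : ND Λ r₀ Nu q R kap Gs) (hL : 0 ≤ Λ) {z : VV n} {g : V n → ℝ}
    (hg : |g z.2 - g z.1| ≤ Λ * ‖z.1 - z.2‖) (hz : ‖z.1 - z.2‖ ≤ 1 / R ^ 2) :
    |R * (g z.2 - Gs) - R * (g z.1 - Gs)| ≤ Λ / R := by
  have hR : 0 < R := by linarith [h.R1]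
  have e : R * (g z.2 - Gs) - R * (g z.1 - Gs) = R * (g z.2 - g z.1) := by ring
  rw [e, abs_mul, abs_of_pos hR]
  calc R * |g z.2 - g z.1| ≤ R * (Λ * (1 / R ^ 2)) :=
        mul_le_mul_of_nonneg_left (hg.trans (mul_le_mul_of_nonneg_left hz hL)) hR.le
    _ = Λ / R := by field_simp

theorem EE_near (h : ND Λ r₀ Nu q R kap Gs) (hG : GF n σ κ Λ r₀) {z : VV n}
    (hz : z ∈ O1 n ×ˢ O1 n) (hzr : ‖z.1 - z.2‖ ≤ 1 / R ^ 2) :
    EE n σ κ Nu R Gs z.2 ≤ 3 * EE n σ κ Nu R Gs z.1 := by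
  have hR : 0 < R := by linarith [h.R1]
  have h1 := h.u_near hG.L0 (g := fun x => gt n σ κ (iv x))
    (hG.lt z.1 hz.1 z.2 hz.2 (hzr.trans h.rr)) hzr
  have h2 : Nu * (Λ / R) ≤ 1 := by
    rw [mul_div_assoc', div_le_one hR]
    have : 0 ≤ q * Λ := mul_nonneg h.q0 hG.L0
    nlinarith [h.r2]
  unfold EE
  have h3 : Nu * R * (gt n σ κ (iv z.2) - Gs) ≤ 1 + Nu * R * (gt n σ κ (iv z.1) - Gs) := by
    have h4 : R * (gt n σ κ (iv z.2) - Gs) - R * (gt n σ κ (iv z.1) - Gs) ≤ Λ / R :=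
      (le_abs_self _).trans h1
    have h5 := mul_le_mul_of_nonneg_left h4 h.N0
    nlinarith
  calc Real.exp (Nu * R * (gt n σ κ (iv z.2) - Gs)) ≤
        Real.exp (1 + Nu * R * (gt n σ κ (iv z.1) - Gs)) := Real.exp_le_exp.2 h3
    _ = Real.exp 1 * Real.exp (Nu * R * (gt n σ κ (iv z.1) - Gs)) := Real.exp_add _ _
    _ ≤ _ := mul_le_mul_of_nonneg_right (by linarith [Real.exp_one_lt_d9]) (Real.exp_pos _).le

/-- The local bound of the residuals. -/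
theorem F_loc (h : ND Λ r₀ Nu q R kap Gs) (hG : GF n σ κ Λ r₀) (hA : 0 ≤ A)
    (hk : K2D d σ Nu q A R kap Gs L k2) (hL : 2 ≤ L) (hB : KB0 d k2 C) {z : VV n}
    (hz : z ∈ O1 n ×ˢ O1 n) (hzr : ‖z.1 - z.2‖ ≤ 1 / R ^ 2) (a b : Fin N) :
    (R * (gx n σ z.1 - Gs) < -(3 / 4 * Real.log kap) →
      Fx d.s₁ d.τ d.β k2 z a b = 0 ∧
      Fy d.s₁ d.s₂ d.τ d.P₂ d.G₂ d.β d.Y d.Γ k2 z a b = 0) ∧
    ‖Fx d.s₁ d.τ d.β k2 z a b‖ ≤ 3 * C * A * Real.exp (Nu * (R * (gx n σ z.1 - Gs)) -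
        q * |R * (gx n σ z.1 - Gs)|) * ‖z.1 - z.2‖ ^ 2 ∧
    ‖Fy d.s₁ d.s₂ d.τ d.P₂ d.G₂ d.β d.Y d.Γ k2 z a b‖ ≤ 3 * C * A *
      Real.exp (Nu * (R * (gx n σ z.1 - Gs)) -
        q * |R * (gx n σ z.1 - Gs)|) * ‖z.1 - z.2‖ ^ 2 := by
  have hR : 0 < R := by linarith [h.R1]
  have hR2 : 1 / R ^ 2 ≤ 1 := by
    rw [div_le_one (by positivity)]
    exact one_le_pow₀ h.R1
  have hz1 : ‖z.1 - z.2‖ ≤ 1 := hzr.trans hR2
  have h1 := h.u_near hG.L0 (g := gx n σ) (hG.lg z.1 hz.1 z.2 hz.2 (hzr.trans h.rr)) hzr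
  have hc1 : Λ / R < 1 / 4 := by
    rw [div_lt_iff₀ hR]; linarith [h.r1]
  have hc2 : (Nu + q) * (Λ / R) ≤ 1 := by
    rw [mul_div_assoc', div_le_one hR]; exact h.r2
  refine ⟨fun hu => ?_, ?_⟩
  · have h2 : R * (gx n σ z.2 - Gs) < -(Real.log kap / 2) := by
      have h3 : R * (gx n σ z.2 - Gs) - R * (gx n σ z.1 - Gs) ≤ Λ / R := (le_abs_self _).trans h1
      linarith [h.l1]
    have h3 := hB z hz1 0 le_rfl (fun i j a b m _ => by
      rw [k2_van hG hk hz.2 h2 i j a b m, norm_zero]) a b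
    simp only [mul_zero] at h3
    exact ⟨norm_le_zero_iff.1 h3.1, norm_le_zero_iff.1 h3.2⟩
  · set u1 := R * (gx n σ z.1 - Gs) with hu1
    set u2 := R * (gx n σ z.2 - Gs) with hu2
    have h2 : Real.exp (Nu * u2 - q * |u2|) ≤ 3 * Real.exp (Nu * u1 - q * |u1|) :=
      HY.S3.exp_near h.N0 h.q0 h1 hc2
    have h3 := hB z hz1 (A * (3 * Real.exp (Nu * u1 - q * |u1|))) (by positivity)
      (fun i j a b m hm => by
        refine (hk.j i j a b m (hm.trans hL) z.2).trans ?_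
        rw [mul_assoc, ← Real.exp_add]
        refine mul_le_mul_of_nonneg_left (le_trans (le_of_eq ?_) h2) hA
        congr 1
        rw [hu2, abs_mul, abs_of_pos hR]
        ring) a b
    constructor
    · refine h3.1.trans (le_of_eq ?_)
      ring
    · refine h3.2.trans (le_of_eq ?_)
      ring

/-- The modulus of the residuals. -/
def FF (d : PD n N) (K0 : KC n N) (z : VV n) : ℝ := √(nq (LxK d K0 z) + nq (RyK d K0 z))

theorem FF_sq (d : PD n N) (K0 : KC n N) (z : VV n) :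
    FF d K0 z ^ 2 = nq (LxK d K0 z) + nq (RyK d K0 z) := by
  unfold FF
  refine Real.sq_sqrt (add_nonneg ?_ ?_) <;>
  exact Finset.sum_nonneg fun a _ => Finset.sum_nonneg fun b _ => sq_nonneg _

theorem FF_off (hK : KO d σ κ Nu R Gs A k2 η K0) {z : VV n} (hz : z ∉ tsupport η) :
    FF d K0 z = 0 := by
  have h0 : η z = 0 := image_eq_zero_of_notMem_tsupport hz
  have h1 : z ∉ tsupport (fderiv ℝ η) := fun h => hz (tsupport_fderiv_subset ℝ h)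
  have hx : ∀ a b, LxK d K0 z a b = 0 := by
    intro a b
    have := hK.ex z a b
    rw [indicator_of_notMem h1, h0] at this
    simpa using this
  have hy : ∀ a b, RyK d K0 z a b = 0 := by
    intro a b
    have := hK.ey z a b
    rw [indicator_of_notMem h1, h0] at this
    simpa using this
  unfold FF nq
  simp [hx, hy]

theorem FF_le (h : ND Λ r₀ Nu q R kap Gs) (hG : GF n σ κ Λ r₀) (hA : 0 ≤ A) (hC : 0 ≤ C)
    (hk : K2D d σ Nu q A R kap Gs L k2) (hL : 2 ≤ L) (hB : KB0 d k2 C)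
    (hη : ED n (1 / R ^ 2) η) (hK : KO d σ κ Nu R Gs A k2 η K0) {z : VV n}
    (hz : z ∈ O1 n ×ˢ O1 n) (hzr : ‖z.1 - z.2‖ ≤ 1 / R ^ 2) :
    ∃ T1 T2 : ℝ, |FF d K0 z| ≤ T1 + T2 ∧
      (T1 = 0 ∨ (-(3 / 4 * Real.log kap) ≤ R * (gx n σ z.1 - Gs) ∧
        T1 = 2 * N * (3 * C) * A * Real.exp (Nu * (R * (gx n σ z.1 - Gs)) -
          q * |R * (gx n σ z.1 - Gs)|) * ‖z.1 - z.2‖ ^ 2)) ∧
      (T2 = 0 ∨ ((1 / R ^ 2 / 2) ^ 2 ≤ HY.sq (z.1 - z.2) ∧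
          T2 = 2 * N * 4 * A * Real.exp (Nu * (R * (gx n σ z.1 - Gs)))) ∨
        (z.1 ∉ Ao n (95 / 100) 13 ∧
          T2 = 2 * N * 4 * A * Real.exp (Nu * R * (gt n σ κ (iv z.1) - Gs)))) := by
  classical
  have hR : 0 < R := by linarith [h.R1]
  set T1 := if R * (gx n σ z.1 - Gs) < -(3 / 4 * Real.log kap) then 0 else
    3 * C * A * Real.exp (Nu * (R * (gx n σ z.1 - Gs)) -
          q * |R * (gx n σ z.1 - Gs)|) * ‖z.1 - z.2‖ ^ 2 with hT1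
  set T2 := if z ∈ tsupport (fderiv ℝ η) then 4 * A * EE n σ κ Nu R Gs z.1 else 0 with hT2
  have hE0 : 0 ≤ EE n σ κ Nu R Gs z.1 := (Real.exp_pos _).le
  have hT10 : 0 ≤ T1 := by rw [hT1]; split_ifs <;> positivity
  have hT20 : 0 ≤ T2 := by rw [hT2]; split_ifs <;> positivity
  have hI : (tsupport (fderiv ℝ η)).indicator
      (fun z => A * (EE n σ κ Nu R Gs z.1 + EE n σ κ Nu R Gs z.2)) z ≤ T2 := by
    rw [hT2]
    split_ifs with hh
    · rw [indicator_of_mem hh]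
      have := EE_near (Nu := Nu) h hG hz hzr
      have h2 : EE n σ κ Nu R Gs z.1 + EE n σ κ Nu R Gs z.2 ≤ 4 * EE n σ κ Nu R Gs z.1 := by
        linarith
      calc A * (EE n σ κ Nu R Gs z.1 + EE n σ κ Nu R Gs z.2) ≤
            A * (4 * EE n σ κ Nu R Gs z.1) := mul_le_mul_of_nonneg_left h2 hA
        _ = _ := by ring
    · rw [indicator_of_notMem hh]
  have hone : ∀ (X Y : Matrix (Fin N) (Fin N) ℂ) (a b : Fin N),
      ‖(X - (η z : ℂ) • Y) a b‖ ≤ (tsupport (fderiv ℝ η)).indicator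
      (fun z => A * (EE n σ κ Nu R Gs z.1 + EE n σ κ Nu R Gs z.2)) z →
      ‖Y a b‖ ≤ T1 → ‖X a b‖ ≤ T1 + T2 := by
    intro X Y a b h1 h2
    have h3 : X a b = (η z : ℂ) * Y a b + (X - (η z : ℂ) • Y) a b := by
      simp [Matrix.sub_apply, Matrix.smul_apply]
    rw [h3]
    refine (norm_add_le _ _).trans (add_le_add ?_ (h1.trans hI))
    rw [norm_mul, Complex.norm_real, Real.norm_eq_abs, abs_of_nonneg (hη.le z).1]
    exact (mul_le_of_le_one_left (norm_nonneg _) (hη.le z).2).trans h2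
  have hx : ∀ a b, ‖LxK d K0 z a b‖ ≤ T1 + T2 := by
    intro a b
    refine hone _ _ a b (hK.ex z a b) ?_
    obtain ⟨g1, g2, -⟩ := F_loc h hG hA hk hL hB hz hzr a b
    rw [hT1]
    split_ifs with hh
    · rw [(g1 hh).1, norm_zero]
    · exact g2
  have hy : ∀ a b, ‖RyK d K0 z a b‖ ≤ T1 + T2 := by
    intro a b
    refine hone _ _ a b (hK.ey z a b) ?_
    obtain ⟨g1, -, g2⟩ := F_loc h hG hA hk hL hB hz hzr a b
    rw [hT1]
    split_ifs with hh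
    · rw [(g1 hh).2, norm_zero]
    · exact g2
  have hF : |FF d K0 z| ≤ 2 * N * (T1 + T2) := by
    unfold FF
    rw [abs_of_nonneg (Real.sqrt_nonneg _)]
    exact sqrt_nq_le (add_nonneg hT10 hT20) hx hy
  by_cases hsup : z ∈ tsupport (fderiv ℝ η)
  · by_cases hlat : z.1 ∈ Ao n (95 / 100) 13
    · refine ⟨2 * N * T1, 2 * N * 4 * A * Real.exp (Nu * (R * (gx n σ z.1 - Gs))), ?_, ?_,
        Or.inr (Or.inl ⟨?_, rfl⟩)⟩
      · refine hF.trans ?_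
        rw [mul_add]
        refine add_le_add le_rfl ?_
        rw [hT2, if_pos hsup]
        have h5 : EE n σ κ Nu R Gs z.1 ≤ Real.exp (Nu * (R * (gx n σ z.1 - Gs))) := by
          unfold EE
          refine Real.exp_le_exp.2 ?_
          have := hG.tl z.1 hz.1
          have h6 : 0 ≤ Nu * R := mul_nonneg h.N0 hR.le
          nlinarith
        calc 2 * (N : ℝ) * (4 * A * EE n σ κ Nu R Gs z.1) =
              (2 * N * 4 * A) * EE n σ κ Nu R Gs z.1 := by ring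
          _ ≤ (2 * N * 4 * A) * Real.exp (Nu * (R * (gx n σ z.1 - Gs))) :=
              mul_le_mul_of_nonneg_left h5 (by positivity)
      · rw [hT1]
        split_ifs with hh
        · left; ring
        · right
          exact ⟨not_lt.1 hh, by ring⟩
      · have h7 : 1 / R ^ 2 / 2 ≤ ‖z.1 - z.2‖ := (hη.df z hsup).resolve_right fun h => h hlat
        exact (pow_le_pow_left₀ (by positivity) h7 2).trans (norm_sq_le _)
    · refine ⟨2 * N * T1, 2 * N * 4 * A * Real.exp (Nu * R * (gt n σ κ (iv z.1) - Gs)), ?_, ?_,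
        Or.inr (Or.inr ⟨hlat, rfl⟩)⟩
      · refine hF.trans ?_
        rw [mul_add]
        refine add_le_add le_rfl (le_of_eq ?_)
        rw [hT2, if_pos hsup]
        unfold EE
        ring
      · rw [hT1]
        split_ifs with hh
        · left; ring
        · right
          exact ⟨not_lt.1 hh, by ring⟩
  · refine ⟨2 * N * T1, 0, ?_, ?_, Or.inl rfl⟩
    · refine hF.trans (le_of_eq ?_)
      rw [hT2, if_neg hsup]
      ring
    · rw [hT1]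
      split_ifs with hh
      · left; ring
      · right
        exact ⟨not_lt.1 hh, by ring⟩

end pt

end Vale.Agent.P088.S4.H238
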