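import Vale.Agent.P088.R2.H238.S4.ER
import Vale.Agent.P088.R2.H509.S4.Geo

/-!
# P088, stage 4, row P4N: the weighted size of the error
-/

open MeasureTheory Set Filter Topology
open scoped ContDiff Matrix

noncomputable section

namespace Vale.Agent.P088.S4.H238

open Vale.Agent.P088.LR Vale.Agent.P088.LR.U Vale.Agent.P088.LR.H158
open Vale.Agent.P088.PJ
open Vale.Agent.P088.HY (VV)
open Vale.Agent.P088.HY.QM (norm_sq_le sq_nonneg' gs gs_nonneg)
open Vale.Agent.P088.HY.T3 (Eb e0 Ao Ac iv)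
open Vale.Agent.P088.HY.T4 (gy gx kk Oc Zq cg Lvl)

variable {n N : ℕ}

theorem gf_of (hn : 3 ≤ n) {σ κ : ℝ} (h0 : 0 < σ) (h1 : σ ≤ 1 / 10) (hκ : 0 ≤ κ)
    (hl : Lvl n 3 (σ / 2) (1 / 4) (gt n σ κ)) : GF n σ κ (6 * (n + 1) ^ 2) 1 where
  L0 := by positivity
  r0 := one_pos
  cg := by
    refine ContinuousOn.mono (s := Ao n (4 / 5) 24) ?_ fun x hx => ⟨by linarith [hx.1],
      by linarith [hx.2]⟩
    have := H509.gt_cont (n := n) σ 0
    refine this.congr fun x _ => ?_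
    show gx n σ x = gy n σ (iv x) - 0 * th n (iv x)
    rw [zero_mul, sub_zero]; rfl
  lg := fun x hx y hy _ => by
    rw [norm_sub_rev]
    exact H509.gx_lip' hn h0 h1 (by linarith [hy.1]) (by linarith [hx.1])
  lt := fun x hx y hy _ => by
    rw [norm_sub_rev]
    exact H509.g_lip hl.sm hl.g1 (by linarith [hy.1]) (by linarith [hx.1])
  ti := fun x hx h => H509.gt_in (by linarith [hx.1]) h
  tl := fun x _ => H509.gt_le hκ x
  b3 := fun x hx => H509.gx_abs (by omega) h0.le h1 (by linarith [hx.1])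
  bh := fun x hx => H509.gx_le_half (by omega) h0.le h1 (by linarith [hx.1])
  bo := fun x _ h => H509.gx_far (by omega) h0.le h1 h

theorem lat {X W w cw l u b R : ℝ} (hcw : Real.exp (-R) ≤ cw)
    (hw : cw * Real.exp (-(b * l) - b * |u|) ≤ w)
    (h : 2 * (X - W) ≤ -(2 * R) - b * l - b * |u|) :
    Real.exp (2 * (X - W)) ≤ Real.exp (-R) * w := by
  calc Real.exp (2 * (X - W)) ≤ Real.exp (-(2 * R) - b * l - b * |u|) := Real.exp_le_exp.2 h
    _ = Real.exp (-R) * (Real.exp (-R) * Real.exp (-(b * l) - b * |u|)) := by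
        rw [← Real.exp_add, ← Real.exp_add]; congr 1; ring
    _ ≤ Real.exp (-R) * (cw * Real.exp (-(b * l) - b * |u|)) :=
        mul_le_mul_of_nonneg_left (mul_le_mul_of_nonneg_right hcw (Real.exp_pos _).le)
          (Real.exp_pos _).le
    _ ≤ _ := mul_le_mul_of_nonneg_left hw (Real.exp_pos _).le

theorem lat_in {ν D b l u R C₁ W : ℝ} (hb : 0 ≤ b) (hD : 0 ≤ D) (hR : 0 ≤ R)
    (hu : u ≤ 3 / 5 * R) (hu' : |u| ≤ 4 * R) (hl : l ≤ R) (hC : C₁ ≤ R / 2)
    (hW : ν * u - C₁ ≤ W) :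
    2 * ((ν + D) * u - (D + 3 * b + 2) * R - W) ≤ -(2 * R) - b * l - b * |u| := by
  have h1 : D * u ≤ D * (3 / 5 * R) := mul_le_mul_of_nonneg_left hu hD
  have h2 : b * |u| ≤ b * (4 * R) := mul_le_mul_of_nonneg_left hu' hb
  have h3 : b * l ≤ b * R := mul_le_mul_of_nonneg_left hl hb
  have h4 : 0 ≤ D * R := mul_nonneg hD hR
  have h5 : 0 ≤ b * R := mul_nonneg hb hR
  nlinarith

theorem lat_out {ν D b l u R C₁ W X : ℝ} (hb : 0 ≤ b) (hD : 2 * b + 17 ≤ D) (hR : 0 ≤ R)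
    (hu : u ≤ -(7 / 10 * R)) (hl : l ≤ R) (hC : C₁ ≤ R / 2)
    (hW : ν * u - C₁ ≤ W) (hX : X ≤ (ν + D) * u) :
    2 * (X - W) ≤ -(2 * R) - b * l - b * |u| := by
  have h0 : u ≤ 0 := by linarith
  rw [abs_of_nonpos h0]
  have h1 : (3 * b + 34) * (7 / 10 * R) ≤ (2 * D - b) * (-u) :=
    mul_le_mul (by linarith) (by linarith) (by positivity) (by linarith)
  have h3 : b * l ≤ b * R := mul_le_mul_of_nonneg_left hl hb
  have h5 : 0 ≤ b * R := mul_nonneg hb hR
  nlinarith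

/-- The weighted size of the error, with explicit constants. -/
theorem er_int {d : PD n N} {σ κ Λ r₀ ν D q A C R kap Gs a b c C₁ v : ℝ} {L : ℕ}
    {k2 : Fin n → Fin n → MC n N} {η : VV n → ℝ} {K0 : KC n N} (hn : 1 ≤ n)
    (h : ND Λ r₀ (ν + D) q R kap Gs) (hG : GF n σ κ Λ r₀) (hA : 0 ≤ A) (hC : 0 ≤ C)
    (hk : K2D d σ (ν + D) q A R kap Gs L k2) (hL : 2 ≤ L) (hB : KB0 d k2 C)
    (hη : ED n (1 / R ^ 2) η) (hts : tsupport η ⊆ O1 n ×ˢ O1 n)
    (hK : KO d σ κ (ν + D) R Gs A k2 η K0)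
    (hv0 : 0 ≤ v) (hv : volume (O1 n) ≤ ENNReal.ofReal v)
    (ha : 0 ≤ a) (hb : 0 ≤ b) (hD : 2 * b + n + 4 + a + 10 ≤ D)
    (hn3 : (3 : ℝ) ≤ n) (hq : b + 2 * D + (n + 4) ≤ 2 * q)
    (hκ : (ν + D) * κ = D + 3 * b + 2) (hc : 0 < c) (hC₁ : C₁ ≤ R / 2)
    (hcw : Real.exp (-R) ≤ c * R ^ (-C₁)) {p : ℕ} (hp : 2 * D + 2 * b + 2 * (n + 4) ≤ p)
    {W w : VV n → ℝ} (hW : WBN d σ a b c C₁ ν R kap Gs W w) :
    ∫ z, Real.exp (-(2 * W z)) * (nq (LxK d K0 z) + nq (RyK d K0 z)) / w z ≤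
      2 * (Real.exp (2 * C₁) / (c * R ^ (-C₁)) *
        Real.exp (-((a + (n + 4 : ℕ)) * Real.log kap))) *
        ((2 * N * (3 * C) * A) ^ 2 * (∫ x : V n, gs 1 x) / √(c / n) ^ (n + 4) * v +
          (2 * N * 4 * A) ^ 2 *
            (1 + p.factorial / (2 * (c / n) * (1 / R ^ 2 / 2) ^ 2) ^ p) * v ^ 2) +
      2 * (2 * N * 4 * A) ^ 2 * Real.exp (-R) * v ^ 2 := by
  have hR : 0 < R := by linarith [h.R1]
  have hn0 : (0 : ℝ) < n := by linarith
  have hO : IsOpen (O1 n) := HY.T3.isOpen_Ao _ _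
  have hk0 := h.k0
  have hZ : ∀ x ∈ O1 n, x ∈ Zq n := fun x hx => ⟨hx.1.le, hx.2.le⟩
  have hOc : ∀ x ∈ O1 n, x ∈ Oc n := fun x hx => ⟨by linarith [hx.1], by linarith [hx.2]⟩
  have hl0 : 0 ≤ Real.log kap := by linarith [h.l1]
  have hkk : ∀ x, kk n σ R kap Gs x = Real.exp (Real.log kap + R * (gx n σ x - Gs)) := fun x => by
    unfold kk
    rw [Real.exp_add, Real.exp_log hk0]
  have hpw : ∀ t : ℝ, kap ^ t = Real.exp (t * Real.log kap) := fun t => by
    rw [Real.rpow_def_of_pos hk0, mul_comm]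
  have habs : ∀ x, R * |gx n σ x - Gs| = |R * (gx n σ x - Gs)| := fun x => by
    rw [abs_mul, abs_of_pos hR]
  have hlow : ∀ z ∈ O1 n ×ˢ O1 n, z ∈ {z : VV n | ‖z.1 - z.2‖ ≤ 1 / R ^ 2} →
      (ν + D - D) * (R * (gx n σ z.1 - Gs)) + c / n * Real.exp (2 * (Real.log kap +
        R * (gx n σ z.1 - Gs))) * HY.sq (z.1 - z.2) - C₁ ≤ W z := by
    intro z hz hzr
    have h1 := hW.W1 z.1 (hZ _ hz.1) z.2 (hZ _ hz.2) hzr
    refine le_trans ?_ h1
    rw [hkk, ← Real.exp_nat_mul]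
    have h2 := H509.sq_le_n (z.1 - z.2)
    have h3 : c / n * Real.exp (2 * (Real.log kap + R * (gx n σ z.1 - Gs))) *
        HY.sq (z.1 - z.2) ≤ c * Real.exp ((2 : ℕ) * (Real.log kap + R * (gx n σ z.1 - Gs))) *
        ‖z.1 - z.2‖ ^ 2 := by
      calc c / n * Real.exp (2 * (Real.log kap + R * (gx n σ z.1 - Gs))) *
          HY.sq (z.1 - z.2) ≤ c / n * Real.exp (2 * (Real.log kap + R * (gx n σ z.1 - Gs))) *
          (n * ‖z.1 - z.2‖ ^ 2) := mul_le_mul_of_nonneg_left h2 (by positivity)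
        _ = _ := by
          push_cast
          field_simp
    linarith
  have hw2 : ∀ z ∈ O1 n ×ˢ O1 n, z ∈ {z : VV n | ‖z.1 - z.2‖ ≤ 1 / R ^ 2} →
      c * R ^ (-C₁) * Real.exp (-(b * Real.log kap) - b * |R * (gx n σ z.1 - Gs)|) ≤ w z := by
    intro z hz hzr
    refine le_trans (le_of_eq ?_) (hW.w2 z.1 (hZ _ hz.1) z.2 (hZ _ hz.2) hzr)
    rw [hpw, mul_assoc (c * R ^ (-C₁)), ← Real.exp_add, ← habs]
    congr 2
    ring
  have e0 : ∀ z, Real.exp (-(2 * W z)) * (nq (LxK d K0 z) + nq (RyK d K0 z)) / w z =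
      HY.S3.Wt W w (FF d K0) z := fun z => by
    unfold HY.S3.Wt
    rw [FF_sq]
  simp_rw [e0]
  have hu : ContinuousOn (fun x => R * (gx n σ x - Gs)) (O1 n) :=
    continuousOn_const.mul (hG.cg.sub continuousOn_const)
  have hnc : ((n + 4 : ℕ) : ℝ) = n + 4 := by push_cast; ring
  refine s6core' hO hv0 hv hu (N := ν + D) (a := a) (b := b) (D := D) (q := q) (p := p)
    hl0 ha hb (by rw [hnc]; linarith) (by rw [hnc]; linarith) (by rw [hnc]; linarith)
    (div_pos hc hn0) (by positivity) (by positivity)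
    (Nr := {z : VV n | ‖z.1 - z.2‖ ≤ 1 / R ^ 2}) ?_ ?_ hlow ?_ hw2
  · intro z hz
    have h1 : z ∈ tsupport η := by
      by_contra h2
      exact hz (FF_off hK h2)
    exact ⟨hts h1, (hη.ts z h1).2⟩
  · intro z hz hzr
    obtain ⟨T1, T2, g1, g2, g3⟩ := FF_le h hG hA hC hk hL hB hη hK hz hzr
    refine ⟨T1, T2, g1, g2, ?_⟩
    rcases g3 with g3 | g3 | ⟨g3, g4⟩
    · exact Or.inl g3
    · exact Or.inr (Or.inl g3)
    · refine Or.inr (Or.inr ⟨_, g4, ?_⟩)
      have hWl : ν * (R * (gx n σ z.1 - Gs)) - C₁ ≤ W z := by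
        refine le_trans ?_ (hlow z hz hzr)
        have : 0 ≤ c / n * Real.exp (2 * (Real.log kap + R * (gx n σ z.1 - Gs))) *
            HY.sq (z.1 - z.2) := by
          have := sq_nonneg' (z.1 - z.2)
          positivity
        rw [add_sub_cancel_right]
        linarith
      refine lat hcw (hw2 z hz hzr) ?_
      have hgz := hG.tl z.1 hz.1
      by_cases hin : √(HY.sq z.1) ≤ 95 / 100
      · have e1 := hG.ti z.1 hz.1 (by linarith)
        have e2 : (ν + D) * R * (gt n σ κ (iv z.1) - Gs) =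
            (ν + D) * (R * (gx n σ z.1 - Gs)) - (D + 3 * b + 2) * R := by
          rw [e1, ← hκ]; ring
        rw [e2]
        refine lat_in (D := D) hb (by linarith) hR.le ?_ ?_ h.lR hC₁ hWl
        · have h1 := hG.bh z.1 hz.1
          have h2 := h.g1
          have h3 : R * (gx n σ z.1 - Gs) ≤ R * (3 / 5) :=
            mul_le_mul_of_nonneg_left (by linarith) hR.le
          linarith
        · rw [← habs]
          have h1 := abs_le.1 (hG.b3 z.1 hz.1)
          have h2 := h.g1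
          have h2' := h.g0
          have h3 : |gx n σ z.1 - Gs| ≤ 4 := abs_le.2 ⟨by linarith [h1.1], by linarith [h1.2]⟩
          have := mul_le_mul_of_nonneg_left h3 hR.le
          linarith
      · have hout : 13 ≤ √(HY.sq z.1) := by
          by_contra h1
          exact g3 ⟨by linarith [not_le.1 hin], not_le.1 h1⟩
        refine lat_out (D := D) hb (by linarith) hR.le ?_ h.lR hC₁ hWl ?_
        · have h1 := hG.bo z.1 hz.1 (by linarith)
          have h2 := h.g1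
          have h3 : R * (gx n σ z.1 - Gs) ≤ R * (-(7 / 10)) :=
            mul_le_mul_of_nonneg_left (by linarith) hR.le
          linarith
        · have h6 : 0 ≤ (ν + D) * R := mul_nonneg h.N0 hR.le
          nlinarith
  · intro z hz hzr hu1
    refine le_trans (le_of_eq ?_) (hW.w1 z.1 (hZ _ hz.1) z.2 (hZ _ hz.2) hzr ?_)
    · rw [hpw, mul_assoc (c * R ^ (-C₁)), ← Real.exp_add, ← habs]
      congr 2
      ring
    · rw [hkk, hpw]
      refine Real.exp_le_exp.2 ?_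
      linarith

end Vale.Agent.P088.S4.H238
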