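import Vale.Agent.P088.R2.H509.S4.Geo
import Vale.Agent.P088.R2.H871.Q.Mk

/-!
# P088, stage 4, row P4N: application of (QMWN)
-/

open MeasureTheory Set Filter Topology
open scoped ContDiff Matrix

noncomputable section

namespace Vale.Agent.P088.S4.H238

open Vale.Agent.P088.LR Vale.Agent.P088.LR.U Vale.Agent.P088.LR.H158
open Vale.Agent.P088.PJ
open Vale.Agent.P088.HY (VV)
open Vale.Agent.P088.HY.T3 (Eb e0 Ao Ac iv)
open Vale.Agent.P088.HY.T4 (gy gx kk Oc Zq cg Lvl)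

variable {n N : ℕ}

theorem K2D.mono {d : PD n N} {σ Nu q A A' R kap Gs : ℝ} {L : ℕ} {k2 : Fin n → Fin n → MC n N}
    (h : K2D d σ Nu q A R kap Gs L k2) (hA : A ≤ A') : K2D d σ Nu q A' R kap Gs L k2 where
  tk := h.tk
  j := fun i j a b l hl x => (h.j i j a b l hl x).trans
    (mul_le_mul_of_nonneg_right (mul_le_mul_of_nonneg_right hA (Real.exp_pos _).le)
      (Real.exp_pos _).le)
  z1 := h.z1
  z2 := h.z2
  tr := h.tr

theorem SlR.mono {O : Set (V n)} {s : MF n} {b : Fin n → MC n N} {g : V n → ℝ} {ρ A A' : ℝ}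
    (h : SlR O s b g ρ A) (hA : A ≤ A') : SlR O s b g ρ A' := by
  intro F hF hi
  obtain ⟨W, h1, h2, h3, h4⟩ := h F hF hi
  refine ⟨W, h1, h2, h3, h4.trans (mul_le_mul_of_nonneg_right hA ?_)⟩
  refine integral_nonneg fun x => mul_nonneg ?_ (Real.exp_pos _).le
  exact Finset.sum_nonneg fun a _ => Finset.sum_nonneg fun b _ => sq_nonneg _

theorem Eb_sub : Ao n (4 / 5) 24 ⊆ Eb (0 : V n) 24 := by
  intro x hx
  show HY.sq (x - 0) < 24 ^ 2
  rw [sub_zero]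
  have h1 := hx.2
  have h2 : √(HY.sq x) ^ 2 = HY.sq x := Real.sq_sqrt (R2.H238.S3.P3.sq_nn x)
  have h3 := Real.sqrt_nonneg (HY.sq x)
  nlinarith

/-- The cut-off near the diagonal. -/
theorem ex_ed (n : ℕ) : ∃ C R₀ : ℝ, 1 ≤ C ∧ ∀ R : ℝ, R₀ ≤ R → 1 ≤ R → ∃ η : VV n → ℝ,
    ED n (1 / R ^ 2) η ∧ tsupport η ⊆ O1 n ×ˢ O1 n ∧
    (∀ l ≤ 2, ∀ z, ‖iteratedFDeriv ℝ l η z‖ ≤ C * R ^ 4) ∧
    (∀ z, z.1 ∈ Ac n (95 / 100) 13 → ‖z.1 - z.2‖ ≤ 1 / R ^ 2 / 2 → η z = 1) := by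
  obtain ⟨C, hC, H⟩ := H509.exists_eta n 2 (a := 92 / 100) (a' := 95 / 100) (b' := 13) (b := 14)
    (by norm_num) (by norm_num)
  have hn0 : (0 : ℝ) ≤ n := Nat.cast_nonneg _
  refine ⟨C, 100 * (n + 1), hC, fun R hR hR1 => ?_⟩
  have hR0 : 0 < R := by linarith
  have ht : 1 / R ^ 2 ≤ 1 := by
    rw [div_le_one (by positivity)]; exact one_le_pow₀ hR1
  obtain ⟨η, h1, h2, h3, h4, h5, h6⟩ := H (1 / R ^ 2) (by positivity) ht
  refine ⟨η, ⟨h1, h2, h4, h5, h6⟩, fun z hz => ?_, fun l hl z => (h3 l hl z).trans (le_of_eq ?_),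
    h5⟩
  · obtain ⟨g1, g2⟩ := h4 z hz
    have hb : z.2 ∈ Metric.ball z.1 (2 / R ^ 2) := by
      rw [mem_ball_iff_norm, norm_sub_rev]
      refine g2.trans_lt ?_
      rw [div_lt_div_iff_of_pos_right (by positivity)]
      norm_num
    obtain ⟨k1, k2⟩ := HY.T3.rt_ball (by positivity : (0 : ℝ) ≤ 2 / R ^ 2) hb
    have e : ((n : ℝ) + 1) * (2 / R ^ 2) ≤ 1 / 50 := by
      rw [mul_div_assoc', div_le_div_iff₀ (by positivity) (by norm_num)]
      have : 100 * ((n : ℝ) + 1) * 1 ≤ R * R := mul_le_mul hR hR1 (by norm_num) hR0.le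
      nlinarith
    have g3 := g1.1
    have g4 := g1.2
    exact ⟨⟨by linarith, by linarith⟩, by linarith, by linarith⟩
  · rw [one_div, inv_pow, div_inv_eq_mul, ← pow_mul]

/-- The application of (QMWN). -/
theorem ko_of (hQ : RowQMWN) (n N : ℕ) (hn : 3 ≤ n) (hN : 1 ≤ N) : ∃ (K m : ℕ) (C ε : ℝ),
    1 ≤ C ∧ 0 < ε ∧ ∀ (d : PD n N) (G : Set (V n)), NrmN K ε d G → ∀ σ κ : ℝ,
    Lvl n 3 (σ / 2) (1 / 4) (gt n σ κ) → ∀ R Nu Gs kap q A b : ℝ, 1 ≤ R → 1 ≤ Nu → 0 ≤ q →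
    0 ≤ A → 1 ≤ b → SlR (Ao n (4 / 5) 24) d.s₂ (b2 d) (fun x => gt n σ κ (iv x)) (Nu * R) 1 →
    ∀ k2 : Fin n → Fin n → MC n N, K2D d σ Nu q A R kap Gs K k2 → ∀ η : VV n → ℝ,
    ED n (1 / R ^ 2) η → tsupport η ⊆ O1 n ×ˢ O1 n →
    (∀ l ≤ 2, ∀ z, ‖iteratedFDeriv ℝ l η z‖ ≤ b) →
    ∃ K0 : KC n N, KO d σ κ Nu R Gs (b * (C * (Nu * R) ^ m * A)) k2 η K0 := by
  obtain ⟨K, m, C, ε, hC, hε, H⟩ := hQ n N hn hN
  obtain ⟨v, hv0, hv⟩ := H509.vol_Ao n (4 / 5) 24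
  have hn0 : (0 : ℝ) ≤ n := Nat.cast_nonneg _
  have hn1 : (1 : ℝ) ≤ (n : ℝ) + 1 := by linarith
  have hΛ : (1 : ℝ) ≤ 6 * ((n : ℝ) + 1) ^ 2 := by nlinarith
  have hr0 : (0 : ℝ) < 1 / (20 * (n + 1)) := by positivity
  have hr1 : (1 : ℝ) / (20 * (n + 1)) ≤ 1 := by
    rw [div_le_one (by positivity)]; linarith
  set X : ℝ := 24 * (6 * ((n : ℝ) + 1) ^ 2) / (1 / (20 * (n + 1))) * (v + 1) with hX
  have hX1 : 1 ≤ X := by
    have h1 : (1 : ℝ) ≤ 24 * (6 * ((n : ℝ) + 1) ^ 2) / (1 / (20 * (n + 1))) := by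
      rw [le_div_iff₀ hr0]; linarith
    have h2 : (1 : ℝ) ≤ v + 1 := by linarith
    exact one_le_mul_of_one_le_of_one_le h1 h2
  refine ⟨K, m, C * X ^ m, ε, one_le_mul_of_one_le_of_one_le hC (one_le_pow₀ hX1), hε, ?_⟩
  intro d G hd σ κ hl R Nu Gs kap q A b hR hNu hq hA hb hS k2 hk η hη hts hηb
  have hR0 : 0 < R := by linarith
  have hρ : 1 ≤ Nu * R := one_le_mul_of_one_le_of_one_le hNu hR
  have hO : IsOpen (Ao n (4 / 5) 24) := HY.T3.isOpen_Ao _ _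
  have hE : ∀ x, Real.exp (-(Nu * R * Gs)) * Real.exp (Nu * R * gt n σ κ (iv x)) =
      EE n σ κ Nu R Gs x := fun x => by
    unfold EE
    rw [← Real.exp_add]; congr 1; ring
  have hj : ∀ i j a b, ∀ l ≤ K, ∀ x ∈ Ao n (4 / 5) 24,
      ‖iteratedFDeriv ℝ l (fun y => k2 i j y a b) x‖ ≤
      A * Real.exp (-(Nu * R * Gs)) * Real.exp (Nu * R * gt n σ κ (iv x)) := by
    intro i j a b l hl' x hx
    by_cases h1 : 1 ≤ √(HY.sq x)
    · refine (hk.j i j a b l hl' x).trans ?_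
      rw [H509.gt_out h1, mul_assoc A, mul_assoc A]
      refine mul_le_mul_of_nonneg_left ?_ hA
      rw [← Real.exp_add, ← Real.exp_add]
      refine Real.exp_le_exp.2 ?_
      have : 0 ≤ q * R * |gx n σ x - Gs| := by positivity
      nlinarith
    · have h2 : (fun y => k2 i j y a b) =ᶠ[𝓝 x] fun _ => 0 := by
        have h3 : IsOpen (Ac n 1 13)ᶜ := (HY.T3.isClosed_Ac _ _).isOpen_compl
        have h4 : x ∈ (Ac n 1 13)ᶜ := fun h => h1 h.1
        filter_upwards [h3.mem_nhds h4] with y hy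
        rw [hk.z1 y hy i j]; rfl
      have h3 := (h2.iteratedFDeriv (𝕜 := ℝ) l).eq_of_nhds
      have h4 := congrFun (iteratedFDeriv_fun_zero (𝕜 := ℝ) (E := V n) (F := ℂ) (n := l)) x
      have h5 : iteratedFDeriv ℝ l (fun y => k2 i j y a b) x = 0 := by
        rw [h3]; exact h4
      rw [h5, norm_zero]
      positivity
  obtain ⟨K0, h1, h2, h3, h4, h5, h6⟩ := H (Ao n (4 / 5) 24) (O1 n) Gᶜ hO
    (HY.T3.isOpen_Ao _ _) _ hr0 hr1 (fun x hx => H509.ball_O1 hx) v hv0 hv 24 (by norm_num)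
    (fun x hx => H509.norm_Ao hx) d (H871.rlp_mono le_rfl le_rfl Eb_sub hO hd.rp)
    (fun x => gt n σ κ (iv x)) _ (H509.gt_cont σ κ) hΛ (H509.gt_LG hl) (Nu * R) hρ hS k2
    (A * Real.exp (-(Nu * R * Gs))) (by positivity) hk.tk hj η b hη.sm hts hηb
  have hC0 : 0 ≤ C := by linarith
  have hb0 : 0 ≤ b := by linarith
  have hX0 : 0 ≤ X := by linarith
  have e1 : (24 * (Nu * R) * (6 * ((n : ℝ) + 1) ^ 2) / (1 / (20 * (n + 1))) * (v + 1)) ^ m =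
      X ^ m * (Nu * R) ^ m := by
    rw [← mul_pow, hX]; congr 1; ring
  rw [e1] at h3 h4 h5 h6
  have e2 : ∀ x y, b * (C * (X ^ m * (Nu * R) ^ m) * (A * Real.exp (-(Nu * R * Gs)))) *
      (Real.exp (Nu * R * gt n σ κ (iv x)) + Real.exp (Nu * R * gt n σ κ (iv y))) =
      b * (C * X ^ m * (Nu * R) ^ m * A) * (EE n σ κ Nu R Gs x + EE n σ κ Nu R Gs y) := by
    intro x y
    rw [← hE, ← hE]; ring
  have hE0 : ∀ x, 0 ≤ EE n σ κ Nu R Gs x := fun x => (Real.exp_pos _).le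
  have hY0 : 0 ≤ C * X ^ m * (Nu * R) ^ m * A := by positivity
  refine ⟨K0, h1, h2, fun z a' b' => (h3 z a' b').trans ?_, fun z a' b' => (h4 z a' b').trans ?_,
    fun z hz a' b' => (h5 z hz a' b').trans ?_, fun χ c1 c2 c3 c4 => (h6 χ c1 c2 c3 c4).trans ?_⟩
  · exact indicator_le_indicator (le_of_eq (e2 _ _))
  · exact indicator_le_indicator (le_of_eq (e2 _ _))
  · rw [← e2]
    have h7 : |η z| ≤ b := by
      rw [abs_of_nonneg (hη.le z).1]; exact (hη.le z).2.trans hb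
    exact mul_le_mul_of_nonneg_right (mul_le_mul_of_nonneg_right h7 (by positivity))
      (add_nonneg (Real.exp_pos _).le (Real.exp_pos _).le)
  · have h8 : C * (X ^ m * (Nu * R) ^ m) * (A * Real.exp (-(Nu * R * Gs))) *
        ∫ p, ∑ i, |pd i χ p| * (U1 d p * Real.exp (Nu * R * gt n σ κ (iv p))) =
        C * X ^ m * (Nu * R) ^ m * A * ∫ p, ∑ i, |pd i χ p| * (U1 d p * EE n σ κ Nu R Gs p) := by
      have : ∫ p, ∑ i, |pd i χ p| * (U1 d p * EE n σ κ Nu R Gs p) =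
          Real.exp (-(Nu * R * Gs)) *
            ∫ p, ∑ i, |pd i χ p| * (U1 d p * Real.exp (Nu * R * gt n σ κ (iv p))) := by
        rw [← integral_const_mul]
        congr 1
        funext p
        rw [Finset.mul_sum]
        refine Finset.sum_congr rfl fun i _ => ?_
        rw [← hE]; ring
      rw [this]; ring
    rw [h8]
    refine mul_le_mul_of_nonneg_right (le_mul_of_one_le_left hY0 hb) ?_
    refine integral_nonneg fun p => Finset.sum_nonneg fun i _ => mul_nonneg (abs_nonneg _)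
      (mul_nonneg ?_ (hE0 p))
    unfold U1
    exact add_nonneg (add_nonneg (Finset.sum_nonneg fun _ _ => Finset.sum_nonneg fun _ _ =>
      abs_nonneg _) (Finset.sum_nonneg fun _ _ => Finset.sum_nonneg fun _ _ => norm_nonneg _))
      (Finset.sum_nonneg fun _ _ => Finset.sum_nonneg fun _ _ => Finset.sum_nonneg fun _ _ =>
        add_nonneg (norm_nonneg _) (Finset.sum_nonneg fun _ _ => norm_nonneg _))

end Vale.Agent.P088.S4.H238
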