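import Vale.Agent.P088.R2.H455.S4.SpecB

/-!
# P088, stage 4, row P4N: definitions

`gt` is the level function of the correctors, `K2D` the test tensor, `ED` the cut-off near the
diagonal, `KO` the output of (QMWN).
-/

open MeasureTheory Set Filter Topology
open scoped ContDiff Matrix

noncomputable section

namespace Vale.Agent.P088.S4.H238

open Vale.Agent.P088.LR Vale.Agent.P088.LR.U Vale.Agent.P088.LR.H158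
open Vale.Agent.P088.PJ
open Vale.Agent.P088.HY (VV)
open Vale.Agent.P088.HY.T3 (Eb e0 Ao Ac iv)
open Vale.Agent.P088.HY.T4 (gy gx kk Oc Zq cg Lvl)

variable {n N : ℕ}

/-- The radial function, `0` for `|y| ≤ 1`, `1` for `|y| ≥ 1.03`. -/
def th (n : ℕ) (y : V n) : ℝ := Real.smoothTransition (25 * (HY.sq y - 51 / 50))

/-- The level function of the correctors. -/
def gt (n : ℕ) (σ κ : ℝ) (y : V n) : ℝ := gy n σ y - κ * th n y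

/-- The exponential weight of the correctors. -/
def EE (n : ℕ) (σ κ Nu R Gs : ℝ) (x : V n) : ℝ := Real.exp (Nu * R * (gt n σ κ (iv x) - Gs))

/-- The domain of the cut-off kernel. -/
def O1 (n : ℕ) : Set (V n) := Ao n (9 / 10) 15

/-- The test tensor. -/
structure K2D (d : PD n N) (σ Nu q A R kap Gs : ℝ) (L : ℕ) (k2 : Fin n → Fin n → MC n N) :
    Prop where
  tk : Tk d.s₁ k2
  j : ∀ i j a b, ∀ l ≤ L, ∀ x : V n, ‖iteratedFDeriv ℝ l (fun y => k2 i j y a b) x‖ ≤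
    A * Real.exp (Nu * R * (gx n σ x - Gs)) * Real.exp (-(q * R * |gx n σ x - Gs|))
  z1 : ∀ x ∉ Ac n 1 13, ∀ i j, k2 i j x = 0
  z2 : ∀ x, R * (gx n σ x - Gs) ≤ -(Real.log kap / 2) → ∀ i j, k2 i j x = 0
  tr : ∀ x ∈ Ac n (99 / 100) 12, ∑ i, ∑ j, (VD d i j x * k2 i j x).trace =
    ((-(cg n σ R kap Gs x ^ 2 * tn (tfC d.s₁ (VD d)) x *
      Real.exp (2 * (Nu * R * (gx n σ x - Gs)))) : ℝ) : ℂ)

/-- **K2** (part A of P4N), the test tensor. -/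
def RowK2N : Prop := ∀ n N : ℕ, 3 ≤ n → 1 ≤ N → ∀ σ : ℝ, 0 < σ → σ ≤ 1 / 10 → ∀ L : ℕ,
  ∃ (J K : ℕ) (ε : ℝ), 0 < ε ∧ ∀ Nu q s C : ℝ, 0 ≤ Nu → 0 ≤ q → 0 < s → 0 ≤ C →
  ∃ C' R₀ : ℝ, 0 ≤ C' ∧ ∀ (d : PD n N) (G : Set (V n)), NrmN K ε d G →
  ∀ (R kap Gs δ : ℝ) (ps : V n), R₀ ≤ R → 1 ≤ R → 1 ≤ Real.log kap →
    SelDN d σ Nu q J C s R kap Gs δ ps →
    ∃ k2 : Fin n → Fin n → MC n N, K2D d σ Nu q (C' * R ^ C' * kap ^ s * δ) R kap Gs L k2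

/-- The cut-off near the diagonal. -/
structure ED (n : ℕ) (t : ℝ) (η : VV n → ℝ) : Prop where
  sm : ContDiff ℝ ∞ η
  le : ∀ z, 0 ≤ η z ∧ η z ≤ 1
  ts : ∀ z ∈ tsupport η, z.1 ∈ Ao n (92 / 100) 14 ∧ ‖z.1 - z.2‖ ≤ t
  one : ∀ z : VV n, z.1 ∈ Ac n (95 / 100) 13 → ‖z.1 - z.2‖ ≤ t / 2 → η z = 1
  df : ∀ z ∈ tsupport (fderiv ℝ η), t / 2 ≤ ‖z.1 - z.2‖ ∨ z.1 ∉ Ao n (95 / 100) 13

/-- The output of (QMWN). -/
structure KO (d : PD n N) (σ κ Nu R Gs A : ℝ) (k2 : Fin n → Fin n → MC n N) (η : VV n → ℝ)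
    (K0 : KC n N) : Prop where
  sm : SmK univ K0
  z0 : ∀ z ∉ tsupport η, K0 z = 0
  ex : ∀ z a' b', ‖(LxK d K0 z - (η z : ℂ) • Fx d.s₁ d.τ d.β k2 z) a' b'‖ ≤
    (tsupport (fderiv ℝ η)).indicator
      (fun z => A * (EE n σ κ Nu R Gs z.1 + EE n σ κ Nu R Gs z.2)) z
  ey : ∀ z a' b', ‖(RyK d K0 z -
      (η z : ℂ) • Fy d.s₁ d.s₂ d.τ d.P₂ d.G₂ d.β d.Y d.Γ k2 z) a' b'‖ ≤
    (tsupport (fderiv ℝ η)).indicator
      (fun z => A * (EE n σ κ Nu R Gs z.1 + EE n σ κ Nu R Gs z.2)) z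
  bd : ∀ z ∈ O1 n ×ˢ O1 n, ∀ a' b', ‖K0 z a' b'‖ ≤
    A * (EE n σ κ Nu R Gs z.1 + EE n σ κ Nu R Gs z.2)
  pr : ∀ χ : V n → ℝ, ContDiff ℝ ∞ χ → HasCompactSupport χ → tsupport χ ⊆ O1 n →
    (∀ p ∈ tsupport χ, ∀ᶠ z in 𝓝 ((p, p) : VV n), η z = 1) →
    ‖(∫ p, (χ p : ℂ) * dgD d K0 p) +
      ∫ p, (χ p : ℂ) * ∑ i, ∑ j, (VD d i j p * k2 i j p).trace‖ ≤
    A * ∫ p, ∑ i, |pd i χ p| * (U1 d p * EE n σ κ Nu R Gs p)

end Vale.Agent.P088.S4.H238
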