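import Vale.Agent.P088.R2.H238.S4.KOf
import Vale.Agent.P088.R2.H238.S4.ER2
import Vale.Agent.P088.R2.H238.S4.ER3
import Vale.Agent.P088.R2.H509.S4.FP
import Vale.Agent.P088.R2.H509.S4.JT
import Vale.Agent.P088.R2.H808.S4.K2
import Vale.Agent.P088.R2.H999.S4.PG

/-!
# P088, stage 4, row P4N
-/

open MeasureTheory Set Filter Topology
open scoped ContDiff Matrix

noncomputable section

namespace Vale.Agent.P088.S4.H238

open Vale.Agent.P088.LR Vale.Agent.P088.LR.U Vale.Agent.P088.LR.H158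
open Vale.Agent.P088.PJ
open Vale.Agent.P088.HY (VV)
open Vale.Agent.P088.HY.T3 (Eb e0 Ao Ac iv)
open Vale.Agent.P088.HY.T4 (gy gx kk Oc Zq cg Lvl)

variable {n N : ℕ}

/-- The constant of the kernel. -/
theorem num_A3 {Ce CQ Nu C2 C3 R kap s δ : ℝ} {m : ℕ} (hCe : 0 ≤ Ce) (hCQ : 0 ≤ CQ)
    (hNu : 0 ≤ Nu) (hC2 : 0 ≤ C2) (h1 : Ce * (CQ * Nu ^ m) * C2 ≤ C3) (h2 : C2 + m + 4 ≤ C3)
    (hR : 1 ≤ R) (hk : 0 < kap) (hδ : 0 ≤ δ) :
    Ce * R ^ 4 * (CQ * (Nu * R) ^ m * (C2 * R ^ C2 * kap ^ s * δ)) ≤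
      C3 * R ^ C3 * kap ^ s * δ := by
  have hR0 : 0 < R := by linarith
  have e1 : R ^ 4 * R ^ m * R ^ C2 = R ^ (C2 + m + 4) := by
    rw [← Real.rpow_natCast R 4, ← Real.rpow_natCast R m, ← Real.rpow_add hR0,
      ← Real.rpow_add hR0]
    congr 1
    push_cast
    ring
  have e2 : Ce * R ^ 4 * (CQ * (Nu * R) ^ m * (C2 * R ^ C2 * kap ^ s * δ)) =
      (Ce * (CQ * Nu ^ m) * C2) * R ^ (C2 + m + 4) * (kap ^ s * δ) := by
    rw [← e1, mul_pow]; ring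
  have h3 : R ^ (C2 + m + 4) ≤ R ^ C3 := Real.rpow_le_rpow_of_exponent_le hR h2
  have h4 : 0 ≤ C3 := by
    refine le_trans ?_ h1
    positivity
  rw [e2, mul_assoc (C3 * R ^ C3)]
  exact mul_le_mul_of_nonneg_right (mul_le_mul h1 h3 (by positivity) h4) (by positivity)

theorem num_A2 {C2 C3 R kap s δ : ℝ} (hC2 : 0 ≤ C2) (h2 : C2 ≤ C3)
    (hR : 1 ≤ R) (hk : 0 < kap) (hδ : 0 ≤ δ) :
    C2 * R ^ C2 * kap ^ s * δ ≤ C3 * R ^ C3 * kap ^ s * δ := by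
  have hR0 : 0 < R := by linarith
  have h3 : R ^ C2 ≤ R ^ C3 := Real.rpow_le_rpow_of_exponent_le hR h2
  exact mul_le_mul_of_nonneg_right (mul_le_mul_of_nonneg_right
    (mul_le_mul h2 h3 (by positivity) (hC2.trans h2)) (by positivity)) hδ

/-- **Row P4N**. -/
theorem rowP4N (hQ : RowQMWN) (hKB : RowXKB) (hP : RowP2R) : RowP4N := by
  intro n N hn hN σ a b hσ hσ1 ha ha4 hb D hD
  have hn3 : (3 : ℝ) ≤ n := by exact_mod_cast hn
  have hD0 : 0 ≤ D := by linarith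
  obtain ⟨κ₀, hκ₀, hκ₀1, hlv⟩ := H509.gt_lvl hn hσ hσ1
  obtain ⟨KP, εP, CP, ρ₀, hεP, hCP, HP⟩ := hP n N hn hN 3 (σ / 2) (1 / 4) (by norm_num)
    (by positivity) (by norm_num)
  obtain ⟨KQ, m, CQ, εQ, hCQ, hεQ, HQ⟩ := ko_of hQ n N hn hN
  refine ⟨b + 2 * D + n + 6, by positivity, max 1 ((D + 3 * b + 2) / κ₀), ?_⟩
  intro ν hν K
  obtain ⟨q, hqe⟩ : ∃ q : ℝ, q = b + 2 * D + n + 6 := ⟨_, rfl⟩
  rw [← hqe]
  have hq0 : 0 ≤ q := by rw [hqe]; positivity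
  have hν1 : 1 ≤ ν := (le_max_left _ _).trans hν
  have hNu1 : 1 ≤ ν + D := by linarith
  have hNu0 : 0 < ν + D := by linarith
  obtain ⟨κ, hκe⟩ : ∃ κ : ℝ, κ = (D + 3 * b + 2) / (ν + D) := ⟨_, rfl⟩
  have hκ : (ν + D) * κ = D + 3 * b + 2 := by rw [hκe]; field_simp
  have hκ0 : 0 ≤ κ := by rw [hκe]; positivity
  have hκ1 : κ ≤ κ₀ := by
    rw [hκe, div_le_iff₀ hNu0]
    have h1 : (D + 3 * b + 2) / κ₀ ≤ ν := (le_max_right _ _).trans hν
    rw [div_le_iff₀ hκ₀] at h1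
    nlinarith
  have hl := hlv κ hκ0 hκ1
  have hGF := gf_of hn hσ hσ1 hκ0 hl
  obtain ⟨kJ, εJ, hεJ, HJ⟩ := H509.jtN' hKB n N K
  obtain ⟨kB, CB, εB, hCB, hεB, HB⟩ := hKB n N 0
  obtain ⟨J, K2, ε2, hε2, H2⟩ := H808.rowK2N n N hn hN σ hσ hσ1 (max KQ (K + 2))
  refine ⟨J, KP + KQ + kJ + kB + K2 + 1, min (min (min εP εQ) (min εJ εB)) (min ε2 1),
    by positivity, ?_⟩
  intro s hs hs1 c C₁ C hc hC₁ hC
  obtain ⟨C2, R2, hC2, H2⟩ := H2 (ν + D) q s C hNu0.le hq0 hs hC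
  obtain ⟨Ce, Re, hCe, HE⟩ := ex_ed n
  obtain ⟨C3, hC3e⟩ : ∃ C3 : ℝ, C3 = max (Ce * (CQ * (ν + D) ^ m) * C2) (C2 + m + 4) := ⟨_, rfl⟩
  have hC3a : Ce * (CQ * (ν + D) ^ m) * C2 ≤ C3 := hC3e ▸ le_max_left _ _
  have hC3b : C2 + m + 4 ≤ C3 := hC3e ▸ le_max_right _ _
  have hm0 : (0 : ℝ) ≤ m := Nat.cast_nonneg _
  have hC30 : 0 ≤ C3 := by linarith
  obtain ⟨p, hp⟩ : ∃ p : ℕ, 2 * D + 2 * b + 2 * ((n : ℝ) + 4) ≤ p := exists_nat_ge _
  obtain ⟨v, -, hv⟩ := H509.vol_Ao n (9 / 10) 15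
  obtain ⟨C4, hC4, H4⟩ := er_num n N (by omega) (a := a) (c := c) (C := CB) (C₁ := C₁) (C3 := C3)
    (v := v ^ 2) (I := ∫ x : V n, HY.QM.gs 1 x) p hc (by linarith) hC30 (sq_nonneg _)
    (integral_nonneg fun x => HY.QM.gs_nonneg _ _) hs.le
  obtain ⟨C5, R5, hC5, H5⟩ := HJ σ ν D q s C₁ C3 hNu0.le hD0 (by rw [hqe]; linarith) hs.le hC₁
    hC30
  obtain ⟨C6, R6, η6, hC6, hη6, H6⟩ := H509.fpN n N hn (κ := κ) (ν := ν) (D := D) (s := s)
    (C3 := C3) hσ.le hσ1 hκ0 (by linarith) hD0 hs1 hC30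
  obtain ⟨R7, H7⟩ := big_R c C₁ hc
  obtain ⟨R8, H8⟩ := H509.eta_one n (a' := 95 / 100) (b' := 13) (by norm_num) (by norm_num)
  obtain ⟨Λ, hΛe⟩ : ∃ Λ : ℝ, Λ = 6 * ((n : ℝ) + 1) ^ 2 := ⟨_, rfl⟩
  rw [← hΛe] at hGF
  have hΛ0 : 0 ≤ Λ := hGF.L0
  have hna : 0 < (n : ℝ) + 4 + a := by linarith
  refine ⟨max C4 (max C5 C6), 1, |R2| + |Re| + |R5| + |R6| + |R7| + |R8| + |ρ₀| + CP + 4 +
    4 * Λ + (ν + D + q) * Λ, min η6 (min (1 / (n + 4 + a)) (1 / 10)),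
    hC4.trans (le_max_left _ _), by positivity, ?_⟩
  intro d G hd R kap Gs δ ps hR hR1 hRk hkR hGs hS
  have hR0 : 0 < R := by linarith
  -- the conditions on `R`
  have b2' := abs_nonneg R2
  have be := abs_nonneg Re
  have b5 := abs_nonneg R5
  have b6 := abs_nonneg R6
  have b7 := abs_nonneg R7
  have b8 := abs_nonneg R8
  have bρ := abs_nonneg ρ₀
  have bq : 0 ≤ (ν + D + q) * Λ := by positivity
  have hR2 : R2 ≤ R := by linarith [le_abs_self R2]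
  have hRe : Re ≤ R := by linarith [le_abs_self Re]
  have hR5 : R5 ≤ R := by linarith [le_abs_self R5]
  have hR6 : R6 ≤ R := by linarith [le_abs_self R6]
  have hR7 : R7 ≤ R := by linarith [le_abs_self R7]
  have hR8 : R8 ≤ R := by linarith [le_abs_self R8]
  have hRρ : ρ₀ ≤ R := by linarith [le_abs_self ρ₀]
  have hRC : CP ≤ R := by linarith
  have hR4 : 4 ≤ R := by linarith
  have hRΛ : 4 * Λ < R := by linarith
  have hRq : (ν + D + q) * Λ ≤ R := by linarith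
  -- the stiffness
  rw [Real.rpow_one] at hRk
  have hk1 : 1 ≤ kap := hS.k1
  have hk0 : 0 < kap := by linarith
  have hlk : 1 ≤ Real.log kap := by
    rw [Real.le_log_iff_exp_le hk0]
    linarith [Real.exp_one_lt_d9]
  have hlog : Real.log kap ≤ min η6 (min (1 / (n + 4 + a)) (1 / 10)) * R := by
    rw [Real.log_le_iff_le_exp hk0]; exact hkR
  have hm1 : min η6 (min (1 / (n + 4 + a)) (1 / 10)) ≤ η6 := min_le_left _ _
  have hm2 : min η6 (min (1 / (n + 4 + a)) (1 / 10)) ≤ 1 / (n + 4 + a) :=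
    (min_le_right _ _).trans (min_le_left _ _)
  have hm3 : min η6 (min (1 / (n + 4 + a)) (1 / 10)) ≤ 1 / 10 :=
    (min_le_right _ _).trans (min_le_right _ _)
  have hl1 : Real.log kap ≤ R := by
    refine hlog.trans ((mul_le_mul_of_nonneg_right hm3 hR0.le).trans ?_)
    linarith
  have hl2 : (n + 4 + a) * Real.log kap ≤ R := by
    have h1 := hlog.trans (mul_le_mul_of_nonneg_right hm2 hR0.le)
    have h2 := mul_le_mul_of_nonneg_left h1 hna.le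
    have e : ((n : ℝ) + 4 + a) * (1 / (n + 4 + a) * R) = R := by field_simp
    linarith
  have hk6 : kap ≤ Real.exp (η6 * R) :=
    hkR.trans (Real.exp_le_exp.2 (mul_le_mul_of_nonneg_right hm1 hR0.le))
  have hGs1 : -(1 / 10) ≤ Gs := by linarith
  have hδ0 := hS.δ0
  -- the data
  have hmono : ∀ k : ℕ, ∀ ε : ℝ, k ≤ KP + KQ + kJ + kB + K2 + 1 →
      min (min (min εP εQ) (min εJ εB)) (min ε2 1) ≤ ε → NrmN k ε d G := fun k ε hk hε =>
    H999.P3.NrmN.mono hd hk hε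
  have m1 : min (min (min εP εQ) (min εJ εB)) (min ε2 1) ≤ min (min εP εQ) (min εJ εB) :=
    min_le_left _ _
  have m2 : min (min (min εP εQ) (min εJ εB)) (min ε2 1) ≤ min ε2 1 := min_le_right _ _
  have mP := (m1.trans (min_le_left _ _)).trans (min_le_left _ _)
  have mQ := (m1.trans (min_le_left _ _)).trans (min_le_right _ _)
  have mJ := (m1.trans (min_le_right _ _)).trans (min_le_left _ _)
  have mB := (m1.trans (min_le_right _ _)).trans (min_le_right _ _)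
  have m22 := m2.trans (min_le_left _ _)
  have m21 := m2.trans (min_le_right _ _)
  obtain ⟨k2, hk2⟩ := H2 d G (hmono K2 ε2 (by omega) m22) R kap Gs δ ps hR2 hR1 hlk hS
  obtain ⟨η, hη, hηs, hηb, hη1⟩ := HE R hRe hR1
  have hρ : 1 ≤ (ν + D) * R := one_le_mul_of_one_le_of_one_le hNu1 hR1
  have hρR : R ≤ (ν + D) * R := le_mul_of_one_le_left hR0.le hNu1
  obtain ⟨hSl, -, -⟩ := HP d G (hmono KP εP (by omega) mP) (gt n σ κ) hl (Ao n (4 / 5) 24)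
    (HY.T3.isOpen_Ao _ _) subset_rfl ((ν + D) * R) (hRρ.trans hρR) hρ
  have hSl1 : SlR (Ao n (4 / 5) 24) d.s₂ (b2 d) (fun x => gt n σ κ (iv x)) ((ν + D) * R) 1 := by
    refine SlR.mono hSl ?_
    rw [div_le_one (by positivity)]
    calc CP ≤ (ν + D) * R := hRC.trans hρR
      _ = ((ν + D) * R) ^ 1 := (pow_one _).symm
      _ ≤ ((ν + D) * R) ^ 3 := pow_le_pow_right₀ hρ (by norm_num)
  have hA2 : 0 ≤ C2 * R ^ C2 * kap ^ s * δ := by positivity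
  have hb1 : 1 ≤ Ce * R ^ 4 := one_le_mul_of_one_le_of_one_le hCe (one_le_pow₀ hR1)
  have hk2Q : K2D d σ (ν + D) q (C2 * R ^ C2 * kap ^ s * δ) R kap Gs KQ k2 :=
    ⟨hk2.tk, fun i j a b l hl => hk2.j i j a b l (hl.trans (le_max_left _ _)), hk2.z1, hk2.z2,
      hk2.tr⟩
  obtain ⟨K0, hK0⟩ := HQ d G (hmono KQ εQ (by omega) mQ) σ κ hl R (ν + D) Gs kap q _ _ hR1 hNu1
    hq0 hA2 hb1 hSl1 k2 hk2Q η hη hηs hηb
  have hA3 := num_A3 (s := s) (by linarith : 0 ≤ Ce) (by linarith : 0 ≤ CQ) hNu0.le hC2 hC3a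
    hC3b hR1 hk0 hδ0.le
  have hA3' := num_A2 (s := s) (C3 := C3) hC2 (by linarith) hR1 hk0 hδ0.le
  have hEE : ∀ x, 0 ≤ EE n σ κ (ν + D) R Gs x := fun x => (Real.exp_pos _).le
  have hKO : KO d σ κ (ν + D) R Gs (C3 * R ^ C3 * kap ^ s * δ) k2 η K0 :=
    { sm := hK0.sm
      z0 := hK0.z0
      ex := fun z a' b' => (hK0.ex z a' b').trans (indicator_le_indicator
        (mul_le_mul_of_nonneg_right hA3 (add_nonneg (hEE _) (hEE _))))
      ey := fun z a' b' => (hK0.ey z a' b').trans (indicator_le_indicator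
        (mul_le_mul_of_nonneg_right hA3 (add_nonneg (hEE _) (hEE _))))
      bd := fun z hz a' b' => (hK0.bd z hz a' b').trans
        (mul_le_mul_of_nonneg_right hA3 (add_nonneg (hEE _) (hEE _)))
      pr := fun χ c1 c2 c3 c4 => (hK0.pr χ c1 c2 c3 c4).trans
        (mul_le_mul_of_nonneg_right hA3 (integral_nonneg fun p => Finset.sum_nonneg fun i _ =>
          mul_nonneg (abs_nonneg _) (mul_nonneg (by
            unfold U1
            exact add_nonneg (add_nonneg (Finset.sum_nonneg fun _ _ =>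
              Finset.sum_nonneg fun _ _ => abs_nonneg _) (Finset.sum_nonneg fun _ _ =>
              Finset.sum_nonneg fun _ _ => norm_nonneg _)) (Finset.sum_nonneg fun _ _ =>
              Finset.sum_nonneg fun _ _ => Finset.sum_nonneg fun _ _ =>
              add_nonneg (norm_nonneg _) (Finset.sum_nonneg fun _ _ => norm_nonneg _)))
            (hEE _)))) }
  have hk3 : K2D d σ (ν + D) q (C3 * R ^ C3 * kap ^ s * δ) R kap Gs (max KQ (K + 2)) k2 :=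
    hk2.mono hA3'
  have hND : ND Λ 1 (ν + D) q R kap Gs :=
    { R1 := hR1, N0 := hNu0.le, q0 := hq0, l1 := hlk, k0 := hk0
      rr := by rw [div_le_one (by positivity)]; exact one_le_pow₀ hR1
      r1 := hRΛ, r2 := hRq, lR := hl1, g0 := hS.gs0, g1 := hGs1 }
  have hB0 : KB0 d k2 CB := by
    intro z hz B hB hj a' b'
    have hdB := hmono kB εB (by omega) mB
    obtain ⟨-, -, h3⟩ := HB _ _ _ _ _ _ _ _ _ _ _ _ hdB.rp.rl d.Γ hdB.rp.ig d.τ hdB.rp.st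
      hdB.rp.it k2 hk2.tk
    have h4 := h3 z hz B hB 0 le_rfl (fun i j a b m hm => hj i j a b m (by omega)) a' b'
    simpa using h4
  obtain ⟨hfa, hpr⟩ := H6 (max C4 (max C5 C6)) ((le_max_right _ _).trans (le_max_right _ _)) _ _
    (by omega : 1 ≤ KP + KQ + kJ + kB + K2 + 1) m21 d G hd R kap Gs δ hR6 hR1 hk1 hk6 hGs1
    hδ0.le hS.δ1.le k2 η K0 q _ _ hk3 hη hKO
  obtain ⟨hC₁R, hcw⟩ := H7 R hR7 hR1
  refine ⟨K0, hKO.sm, ?_, ?_, ?_, ?_, hfa, hpr⟩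
  · intro a' b'
    refine HasCompactSupport.of_support_subset_isCompact (isCompact_closedBall (0 : VV n) 15)
      fun z hz => ?_
    have h1 : z ∈ tsupport η := by
      by_contra h2
      exact hz (by show K0 z a' b' = 0; rw [hKO.z0 z h2]; rfl)
    have h2 := hηs h1
    rw [mem_closedBall_zero_iff, Prod.norm_def]
    exact max_le (H509.norm_Ao h2.1) (H509.norm_Ao h2.2)
  · intro z hz
    have h1 : z ∈ tsupport η := by
      by_contra h2
      exact hz (hKO.z0 z h2)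
    have h2 := hηs h1
    exact ⟨⟨h2.1.1.le, h2.1.2.le⟩, ⟨h2.2.1.le, h2.2.2.le⟩, (hη.ts z h1).2⟩
  · intro W w hW
    refine (er_int (by omega) hND hGF (by positivity) hCB.le hk3 (by omega) hB0 hη hηs hKO
      (sq_nonneg v) hv ha.le hb (by linarith) hn3 (by rw [hqe]; linarith) hκ hc hC₁R hcw hp
      hW).trans ?_
    exact H4 _ (le_max_left _ _) R kap δ _ hR1 hk1 hδ0.le hl2 rfl
  · intro p' hp' l hl' z hz a' b'
    exact H5 _ ((le_max_left _ _).trans (le_max_right _ _)) R kap Gs δ hR5 hR1 hk1 hδ0.le _ _ d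
      (hmono kJ εJ (by omega) mJ).rp k2 hk2.tk
      (fun i j a b l hl x _ => (hk3.j i j a b l (hl.trans (le_max_right _ _)) x).trans
        (le_of_eq (mul_assoc _ _ _))) η K0 _ _
      (H8 R hR8 hR1 η hη1) hKO.ex hKO.ey p' hp' l hl' z hz a' b'

end Vale.Agent.P088.S4.H238
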